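import Vale.Agent.P372.Bits.Main
import Vale.Agent.P372.Werner

open Matrix Vale.Agent.P372
open scoped Kronecker ComplexOrder

theorem Vale.Agent.Results.P372.KeyFreeBits.result :
    (∀ n R : ℕ, 1 ≤ R → ∃ (d : ℕ) (ρ : Matrix (Fin d × Fin d) (Fin d × Fin d) ℂ),
      ρ.PosSemidef ∧ ρ.trace = 1 ∧ ¬ IsSep ρ ∧ ρ.submatrix Prod.swap Prod.swap = ρ ∧
        KeyFreeBits n R (1 / (4 * (4 * R + 1))) ρ) ∧
    (∀ (d n R : ℕ) (ρ : Matrix (Fin d × Fin d) (Fin d × Fin d) ℂ) (lam mu : ℝ),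
      1 ≤ R → ρ.trace = 1 → 0 ≤ lam → (ρ - (lam : ℂ) • 1).PosSemidef →
        ((mu : ℂ) • 1 - ρ).PosSemidef →
        (4 * R : ℕ) * mu ^ n ≤ ((4 * R : ℕ) + 1) * lam ^ n →
        KeyFreeBits n R (1 / (4 * (4 * R + 1))) ρ) := by
  refine ⟨fun n R hR => ?_, fun d n R ρ lam mu hR htr hl hlo hhi hn =>
    Bits.keyFreeBits_of_window n R ρ lam mu hl hlo hhi hn htr hR⟩
  obtain ⟨D, hD⟩ : ∃ D : ℕ, D = 2 * (n + 1) * (4 * R + 1) := ⟨_, rfl⟩
  have hD2 : 2 ≤ D := by subst hD; nlinarith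
  have hd : 2 ≤ D + 1 := by omega
  have hpos : (0 : ℝ) < D := by exact_mod_cast (by omega : 0 < D)
  have hx0 : (0 : ℝ) ≤ 1 / D := by positivity
  have hx : (1 : ℝ) / D < 1 := by
    rw [div_lt_one hpos]
    exact_mod_cast (by omega : 1 < D)
  have hn : 2 * (n : ℝ) * (1 / D) * (((4 * R : ℕ) : ℝ) + 1) ≤ 1 := by
    rw [mul_one_div, div_mul_eq_mul_div, div_le_one hpos, hD]
    push_cast
    nlinarith [Nat.cast_nonneg (α := ℝ) R]
  refine ⟨D + 1, werner _ (1 / D), werner_psd hd hx0 hx, werner_trace hd hx,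
    werner_not_sep hd hx ?_, werner_swap _, ?_⟩
  · push_cast
    rw [div_mul_eq_mul_div, one_mul, lt_div_iff₀ hpos]
    linarith
  have hc : 0 ≤ (((D + 1 : ℕ) : ℝ) * (D + 1 : ℕ) - 1 / D * (D + 1 : ℕ))⁻¹ :=
    inv_nonneg.mpr (den_pos hd hx).le
  refine Bits.keyFreeBits_of_window n R _ _ _ (mul_nonneg hc (by linarith))
    (werner_window hd hx0 hx).1 (werner_window hd hx0 hx).2 ?_ (werner_trace hd hx) hR
  have hp := Bits.pow_windowK hx0 hx.le hn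
  have := mul_le_mul_of_nonneg_left hp (pow_nonneg hc n)
  rw [mul_pow, mul_pow]
  linarith
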