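import Vale.Agent.P372.Meas.Povm

open Matrix Vale.Agent.P372
open scoped Kronecker ComplexOrder

theorem Vale.Agent.Results.P372.KeyFreeMeasured.result :
    (∃ ρ : Matrix (Fin 4 × Fin 4) (Fin 4 × Fin 4) ℂ,
      ρ.PosSemidef ∧ ρ.trace = 1 ∧ ¬ IsSep ρ ∧ ρ.submatrix Prod.swap Prod.swap = ρ ∧
        KeyFreeMeas (basisMeas 4) (1 / 4) ρ) ∧
    (∀ r : ℕ, ∃ (d : ℕ) (ρ : Matrix (Fin d × Fin d) (Fin d × Fin d) ℂ),
      ρ.PosSemidef ∧ ρ.trace = 1 ∧ ¬ IsSep ρ ∧ ρ.submatrix Prod.swap Prod.swap = ρ ∧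
        KeyFreeMeas (povms d r) (1 / 4) ρ) ∧
    (∀ (d : ℕ) (ρ : Matrix (Fin d × Fin d) (Fin d × Fin d) ℂ) (lam mu : ℝ),
      ρ.trace = 1 → (ρ - (lam : ℂ) • 1).PosSemidef → ((mu : ℂ) • 1 - ρ).PosSemidef →
        mu ≤ 2 * lam → KeyFreeMeas (basisMeas d) (1 / 4) ρ) := by
  have crit : ∀ (d : ℕ) (ρ : Matrix (Fin d × Fin d) (Fin d × Fin d) ℂ) (lam mu : ℝ),
      ρ.trace = 1 → (ρ - (lam : ℂ) • 1).PosSemidef → ((mu : ℂ) • 1 - ρ).PosSemidef →
        mu ≤ 2 * lam → KeyFreeMeas (basisMeas d) (1 / 4) ρ := by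
    intro d ρ lam mu htr hlo hhi h2
    have hlm : lam ≤ mu := by
      have hne : Nonempty (Fin d × Fin d) := by
        by_contra h
        rw [not_nonempty_iff] at h
        simp [trace] at htr
      obtain ⟨p⟩ := hne
      have h := (Complex.nonneg_iff.mp ((hlo.add hhi).diag_nonneg (i := p))).1
      simp at h
      linarith
    refine Meas.keyFreeMeas_of_splits _ ρ htr ?_ ?_
    · rintro F ⟨U, -, -, hF⟩ y
      rw [hF]
      exact (Meas.single_psd y).mul_mul_conjTranspose_same U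
    · rintro F ⟨U, hU, hU', hF⟩
      rw [funext hF]
      exact Meas.splits_basis ρ lam mu hlo hhi h2 hlm U hU hU'
  refine ⟨?_, fun r => ?_, crit⟩
  · have hd : 2 ≤ 4 := by norm_num
    have hx0 : (0 : ℝ) ≤ 3 / 10 := by norm_num
    have hx : (3 : ℝ) / 10 < 1 := by norm_num
    have hc : 0 ≤ (((4 : ℕ) : ℝ) * (4 : ℕ) - 3 / 10 * (4 : ℕ))⁻¹ :=
      inv_nonneg.mpr (den_pos hd hx).le
    refine ⟨werner 4 (3 / 10), werner_psd hd hx0 hx, werner_trace hd hx,
      werner_not_sep hd hx (by norm_num), werner_swap _, ?_⟩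
    refine crit 4 _ _ _ (werner_trace hd hx) (werner_window hd hx0 hx).1
      (werner_window hd hx0 hx).2 ?_
    linarith
  · have hd : 2 ≤ 2 * r + 3 := by omega
    obtain ⟨x, hxdef⟩ : ∃ x : ℝ, x = 1 / (2 * r + 2) := ⟨_, rfl⟩
    have hr : (0 : ℝ) ≤ r := Nat.cast_nonneg r
    have hx0 : 0 ≤ x := by rw [hxdef]; positivity
    have hx : x < 1 := by rw [hxdef, div_lt_one (by positivity)]; linarith
    have hx1 : x * (2 * r + 1) ≤ 1 := by
      rw [hxdef, div_mul_eq_mul_div, one_mul, div_le_one (by positivity)]; linarith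
    have hxd : 1 < x * ((2 * r + 3 : ℕ) : ℝ) := by
      rw [hxdef, div_mul_eq_mul_div, one_mul, lt_div_iff₀ (by positivity)]
      push_cast
      linarith
    refine ⟨2 * r + 3, werner _ x, werner_psd hd hx0 hx, werner_trace hd hx,
      werner_not_sep hd hx hxd, werner_swap _, ?_⟩
    exact Meas.keyFreeMeas_of_splits _ _ (werner_trace hd hx) (fun F hF => hF.1)
      fun F hF => Meas.splits_povm hd hx0 hx1 hx F hF.1
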